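import Vale.Agent.P024.Bdl.B2
import Vale.Agent.P024.Bdl.B1

/-!
The main theorems for fields which are only closed under `l`-th roots, for one odd prime `l`, and
contain the roots of unity.
-/

namespace Vale.Agent.P024.H863

open Vale.Agent.P024
open scoped NumberField Topology
open IsDedekindDomain Filter

/-- `E` contains the roots of unity and every element of `E` is an `l`-th power. -/
def RootClosed (l : ℕ) (E : Type*) [Field E] : Prop :=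
  (∀ n : ℕ, 0 < n → ∃ z : E, IsPrimitiveRoot z n) ∧ ∀ x : E, ∃ y : E, y ^ l = x

theorem rootClosed_of_solvablyClosed {E : Type*} [Field E] [CharZero E] (hE : SolvablyClosed E)
    {l : ℕ} (hl : 0 < l) : RootClosed l E :=
  ⟨hE.exists_primitiveRoot, hE.exists_root l hl⟩

section

variable {F₁ E₁ F₂ E₂ : Type*} [Field F₁] [NumberField F₁] [Field E₁]
    [Algebra F₁ E₁] [IsGalois F₁ E₁] [Field F₂] [NumberField F₂] [Field E₂] [Algebra F₂ E₂]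
    [IsGalois F₂ E₂]

/-- any continuous homomorphism -/
theorem ker_A {l : ℕ} (hl : l.Prime) (hl2 : l ≠ 2) (hE₁ : RootClosed l E₁) (hE₂ : RootClosed l E₂)
    (α : (E₁ ≃ₐ[F₁] E₁) →* (E₂ ≃ₐ[F₂] E₂)) (hα : Continuous α)
    (U : Subgroup (E₁ ≃ₐ[F₁] E₁)) (hU : IsOpen (U : Set (E₁ ≃ₐ[F₁] E₁)))
    (Q : Set ℕ) (hQ : MeetsSplit Q)
    (hker : ∀ g ∈ U, ∀ p a b : ℕ, p.Prime → p ∈ Q → l ∣ p - 1 →
      (∀ z : E₁, z ^ p = 1 → g z = z ^ a) → (∀ z : E₂, z ^ p = 1 → (α g) z = z ^ b) →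
      b ^ ((p - 1) / l) ≡ 1 [MOD p] → a ^ ((p - 1) / l) ≡ 1 [MOD p]) :
    ∃ j : E₂ →+* E₁, ∀ (g : E₁ ≃ₐ[F₁] E₁) (x : E₂), g (j x) = j ((α g) x) := by
  have : CharZero E₁ := charZero_of_injective_algebraMap (algebraMap F₁ E₁).injective
  have : CharZero E₂ := charZero_of_injective_algebraMap (algebraMap F₂ E₂).injective
  obtain ⟨ζ₁, hζ₁⟩ := hE₁.1 l hl.pos
  obtain ⟨ζ₂, hζ₂⟩ := hE₂.1 l hl.pos
  exact glue396 hl hE₁.2 hE₂.2 hζ₁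
    (fun K₂ hK₂ => core_ker_revQ α hα hl hl2 hE₁.2 hE₂.2 hE₁.1 hE₂.1
      (fun K _ hK => gaussKummer_of_mem hl hζ₁ K hK)
      (fun K _ hK => gaussKummer_of_mem hl hζ₂ K hK) U hU Q hQ hker K₂ hK₂)

/-- continuous homomorphisms with open image, with the reverse implication -/
theorem ker_B {l : ℕ} (hl : l.Prime) (hl2 : l ≠ 2) (hE₁ : RootClosed l E₁) (hE₂ : RootClosed l E₂)
    (α : (E₁ ≃ₐ[F₁] E₁) →* (E₂ ≃ₐ[F₂] E₂)) (hα : Continuous α) (hopen : IsOpen (Set.range α))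
    (U : Subgroup (E₁ ≃ₐ[F₁] E₁)) (hU : IsOpen (U : Set (E₁ ≃ₐ[F₁] E₁)))
    (Q : Set ℕ) (hQ : MeetsSplit Q)
    (hker : ∀ g ∈ U, ∀ p a b : ℕ, p.Prime → p ∈ Q → l ∣ p - 1 →
      (∀ z : E₁, z ^ p = 1 → g z = z ^ a) → (∀ z : E₂, z ^ p = 1 → (α g) z = z ^ b) →
      a ^ ((p - 1) / l) ≡ 1 [MOD p] → b ^ ((p - 1) / l) ≡ 1 [MOD p]) :
    ∃ j : E₂ →+* E₁, ∀ (g : E₁ ≃ₐ[F₁] E₁) (x : E₂), g (j x) = j ((α g) x) := by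
  have : CharZero E₁ := charZero_of_injective_algebraMap (algebraMap F₁ E₁).injective
  have : CharZero E₂ := charZero_of_injective_algebraMap (algebraMap F₂ E₂).injective
  obtain ⟨ζ₁, hζ₁⟩ := hE₁.1 l hl.pos
  obtain ⟨ζ₂, hζ₂⟩ := hE₂.1 l hl.pos
  exact glue396 hl hE₁.2 hE₂.2 hζ₁
    (fun K₂ hK₂ => core_ker_openQ α hα hopen hl hl2 hE₁.2 hE₂.2 hE₁.1 hE₂.1
      (fun K _ hK => gaussKummer_of_mem hl hζ₂ K hK) U hU Q hQ hker K₂ hK₂)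

omit [NumberField F₁] [IsGalois F₁ E₁] in
/-- the exponent of the action on the `p`-th roots of unity -/
theorem exists_exponent (hE₁ : ∀ n : ℕ, 0 < n → ∃ z : E₁, IsPrimitiveRoot z n)
    (g : E₁ ≃ₐ[F₁] E₁) {p : ℕ} (hp : 0 < p) :
    ∃ a : ℕ, ∀ z : E₁, z ^ p = 1 → g z = z ^ a := by
  have : NeZero p := ⟨hp.ne'⟩
  obtain ⟨ξ, hξ⟩ := hE₁ p hp
  obtain ⟨a, -, ha⟩ := hξ.eq_pow_of_pow_eq_one (ξ := g ξ)
    (by rw [← map_pow, hξ.pow_eq_one, map_one])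
  refine ⟨a, fun z hz => ?_⟩
  obtain ⟨i, -, rfl⟩ := hξ.eq_pow_of_pow_eq_one hz
  rw [map_pow, ← ha, ← pow_mul, ← pow_mul, mul_comm]

theorem pow_congr {E : Type*} [Field E] {p a b : ℕ} (h : a ≡ b [MOD p]) {z : E}
    (hz : z ^ p = 1) : z ^ a = z ^ b := by
  rw [← pow_mod_orderOf, ← pow_mod_orderOf z b]
  congr 1
  exact h.of_dvd (orderOf_dvd_of_pow_eq_one hz)

omit [NumberField F₁] [IsGalois F₁ E₁] in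
theorem exponent_coprime' (hE₁ : ∀ n : ℕ, 0 < n → ∃ z : E₁, IsPrimitiveRoot z n)
    (g : E₁ ≃ₐ[F₁] E₁) {p a : ℕ}
    (hp : 0 < p) (ha : ∀ z : E₁, z ^ p = 1 → g z = z ^ a) : a.Coprime p := by
  obtain ⟨ξ₁, hξ₁⟩ := hE₁ p hp
  have h2 : IsPrimitiveRoot (g ξ₁) p := hξ₁.map_of_injective g.injective
  rw [ha ξ₁ hξ₁.pow_eq_one] at h2
  exact (hξ₁.pow_iff_coprime hp a).1 h2

omit [NumberField F₁] [IsGalois F₁ E₁] in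
/-- acting as an `l`-th power -/
theorem acts_iff {l : ℕ} (hl : l.Prime) (hE₁ : ∀ n : ℕ, 0 < n → ∃ z : E₁, IsPrimitiveRoot z n)
    (g : E₁ ≃ₐ[F₁] E₁) {p a : ℕ} (hp : p.Prime) (hlp : l ∣ p - 1)
    (ha : ∀ z : E₁, z ^ p = 1 → g z = z ^ a) :
    (∃ c : ℕ, ∀ z : E₁, z ^ p = 1 → g z = z ^ (c ^ l)) ↔ a ^ ((p - 1) / l) ≡ 1 [MOD p] := by
  rw [← exists_pow_modEq_iff hl hp hlp (exponent_coprime' hE₁ g hp.pos ha)]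
  obtain ⟨ξ, hξ⟩ := hE₁ p hp.pos
  constructor
  · rintro ⟨c, hc⟩
    refine ⟨c, (pow_eq_pow_iff_modEq' hξ hp.pos).1 ?_⟩
    rw [← ha ξ hξ.pow_eq_one, ← hc ξ hξ.pow_eq_one]
  · rintro ⟨c, hc⟩
    exact ⟨c, fun z hz => by rw [ha z hz]; exact pow_congr hc hz⟩

/-- (3) ⇒ (1) -/
theorem acts_A {l : ℕ} (hl : l.Prime) (hl2 : l ≠ 2) (hE₁ : RootClosed l E₁)
    (hE₂ : RootClosed l E₂) (α : (E₁ ≃ₐ[F₁] E₁) →* (E₂ ≃ₐ[F₂] E₂)) (hα : Continuous α)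
    (U : Subgroup (E₁ ≃ₐ[F₁] E₁)) (hU : IsOpen (U : Set (E₁ ≃ₐ[F₁] E₁)))
    (Q : Set ℕ) (hQ : MeetsSplit Q)
    (h : ∀ g ∈ U, ∀ p ∈ Q, p.Prime → p ≡ 1 [MOD l] →
      (∃ c : ℕ, ∀ z : E₂, z ^ p = 1 → (α g) z = z ^ (c ^ l)) →
      ∃ c : ℕ, ∀ z : E₁, z ^ p = 1 → g z = z ^ (c ^ l)) :
    ∃ j : E₂ →+* E₁, ∀ (g : E₁ ≃ₐ[F₁] E₁) (x : E₂), g (j x) = j ((α g) x) := by
  refine ker_A hl hl2 hE₁ hE₂ α hα U hU Q hQ ?_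
  intro g hg p a b hp hpQ hlp ha hb hb1
  have hpl : p ≡ 1 [MOD l] := ((Nat.modEq_iff_dvd' hp.one_le).2 hlp).symm
  exact (acts_iff hl hE₁.1 g hp hlp ha).1 (h g hg p hpQ hp hpl
    ((acts_iff hl hE₂.1 (α g) hp hlp hb).2 hb1))

/-- (4) ⇒ (1) -/
theorem acts_B {l : ℕ} (hl : l.Prime) (hl2 : l ≠ 2) (hE₁ : RootClosed l E₁)
    (hE₂ : RootClosed l E₂) (α : (E₁ ≃ₐ[F₁] E₁) →* (E₂ ≃ₐ[F₂] E₂)) (hα : Continuous α)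
    (hopen : IsOpen (Set.range α))
    (U : Subgroup (E₁ ≃ₐ[F₁] E₁)) (hU : IsOpen (U : Set (E₁ ≃ₐ[F₁] E₁)))
    (Q : Set ℕ) (hQ : MeetsSplit Q)
    (h : ∀ g ∈ U, ∀ p ∈ Q, p.Prime → p ≡ 1 [MOD l] →
      (∃ c : ℕ, ∀ z : E₁, z ^ p = 1 → g z = z ^ (c ^ l)) →
      ∃ c : ℕ, ∀ z : E₂, z ^ p = 1 → (α g) z = z ^ (c ^ l)) :
    ∃ j : E₂ →+* E₁, ∀ (g : E₁ ≃ₐ[F₁] E₁) (x : E₂), g (j x) = j ((α g) x) := by
  refine ker_B hl hl2 hE₁ hE₂ α hα hopen U hU Q hQ ?_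
  intro g hg p a b hp hpQ hlp ha hb hb1
  have hpl : p ≡ 1 [MOD l] := ((Nat.modEq_iff_dvd' hp.one_le).2 hlp).symm
  exact (acts_iff hl hE₂.1 (α g) hp hlp hb).1 (h g hg p hpQ hp hpl
    ((acts_iff hl hE₁.1 g hp hlp ha).2 hb1))

theorem existsUnique_of_exists' {l : ℕ} (hl : l.Prime) (hE₁ : RootClosed l E₁)
    (hE₂ : RootClosed l E₂) (α : (E₁ ≃ₐ[F₁] E₁) →* (E₂ ≃ₐ[F₂] E₂))
    (h : ∃ j : E₂ →+* E₁, ∀ (g : E₁ ≃ₐ[F₁] E₁) (x : E₂), g (j x) = j ((α g) x)) :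
    ∃! j : E₂ →+* E₁, ∀ (g : E₁ ≃ₐ[F₁] E₁) (x : E₂), g (j x) = j ((α g) x) := by
  obtain ⟨j, hj⟩ := h
  obtain ⟨ζ, hζ⟩ := hE₁.1 l hl.pos
  exact ⟨j, hj, fun j' hj' => unique_of_induces α hl hE₁.2 hE₂.2 hζ j' j hj' hj⟩

theorem meetsSplit_univ : MeetsSplit Set.univ :=
  meetsSplit_of_ringHom (fun Z _ _ _ => ringHom_univ Z)

/-- **Hoshi's theorem for fields closed under `l`-th roots for one odd prime `l`**, with the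
weakest form of the compatibility. -/
theorem one_prime {l : ℕ} (hl : l.Prime) (hl2 : l ≠ 2) (hE₁ : RootClosed l E₁)
    (hE₂ : RootClosed l E₂) (α : (E₁ ≃ₐ[F₁] E₁) →* (E₂ ≃ₐ[F₂] E₂)) (hα : Continuous α) :
    ((∀ (g : E₁ ≃ₐ[F₁] E₁) (n k : ℕ), 0 < n → (∀ z : E₁, z ^ n = 1 → g z = z ^ k) →
      ∀ z : E₂, z ^ n = 1 → (α g) z = z ^ k) → IsOpen (Set.range α)) ∧
    List.TFAE [
      ∃! j : E₂ →+* E₁, ∀ (g : E₁ ≃ₐ[F₁] E₁) (x : E₂), g (j x) = j ((α g) x),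
      ∀ (g : E₁ ≃ₐ[F₁] E₁) (n k : ℕ), 0 < n → (∀ z : E₁, z ^ n = 1 → g z = z ^ k) →
        ∀ z : E₂, z ^ n = 1 → (α g) z = z ^ k,
      ∃ U : Subgroup (E₁ ≃ₐ[F₁] E₁), IsOpen (U : Set (E₁ ≃ₐ[F₁] E₁)) ∧
        ∃ Q : Set ℕ, MeetsSplit Q ∧ ∀ g ∈ U, ∀ p ∈ Q, p.Prime → p ≡ 1 [MOD l] →
          (∃ c : ℕ, ∀ z : E₂, z ^ p = 1 → (α g) z = z ^ (c ^ l)) →
          ∃ c : ℕ, ∀ z : E₁, z ^ p = 1 → g z = z ^ (c ^ l),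
      IsOpen (Set.range α) ∧
      ∃ U : Subgroup (E₁ ≃ₐ[F₁] E₁), IsOpen (U : Set (E₁ ≃ₐ[F₁] E₁)) ∧
        ∃ Q : Set ℕ, MeetsSplit Q ∧ ∀ g ∈ U, ∀ p ∈ Q, p.Prime → p ≡ 1 [MOD l] →
          (∃ c : ℕ, ∀ z : E₁, z ^ p = 1 → g z = z ^ (c ^ l)) →
          ∃ c : ℕ, ∀ z : E₂, z ^ p = 1 → (α g) z = z ^ (c ^ l)] := by
  have hback : (∀ (g : E₁ ≃ₐ[F₁] E₁) (n k : ℕ), 0 < n →
      (∀ z : E₁, z ^ n = 1 → g z = z ^ k) → ∀ z : E₂, z ^ n = 1 → (α g) z = z ^ k) →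
      ∀ g : E₁ ≃ₐ[F₁] E₁, ∀ p : ℕ, p.Prime →
        (∃ c : ℕ, ∀ z : E₂, z ^ p = 1 → (α g) z = z ^ (c ^ l)) →
        ∃ c : ℕ, ∀ z : E₁, z ^ p = 1 → g z = z ^ (c ^ l) := by
    rintro h g p hp ⟨c, hc⟩
    obtain ⟨a, ha⟩ := exists_exponent hE₁.1 g hp.pos
    obtain ⟨ξ, hξ⟩ := hE₂.1 p hp.pos
    have h1 := h g p a hp.pos ha ξ hξ.pow_eq_one
    rw [hc ξ hξ.pow_eq_one] at h1
    have h2 := (pow_eq_pow_iff_modEq' hξ hp.pos).1 h1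
    exact ⟨c, fun z hz => by rw [ha z hz]; exact pow_congr h2.symm hz⟩
  have h23 : (∀ (g : E₁ ≃ₐ[F₁] E₁) (n k : ℕ), 0 < n →
      (∀ z : E₁, z ^ n = 1 → g z = z ^ k) → ∀ z : E₂, z ^ n = 1 → (α g) z = z ^ k) →
      ∃ j : E₂ →+* E₁, ∀ (g : E₁ ≃ₐ[F₁] E₁) (x : E₂), g (j x) = j ((α g) x) := fun h =>
    acts_A hl hl2 hE₁ hE₂ α hα ⊤ isOpen_univ Set.univ meetsSplit_univ
      (fun g _ p _ hp _ hc => hback h g p hp hc)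
  have hop : (∀ (g : E₁ ≃ₐ[F₁] E₁) (n k : ℕ), 0 < n →
      (∀ z : E₁, z ^ n = 1 → g z = z ^ k) → ∀ z : E₂, z ^ n = 1 → (α g) z = z ^ k) →
      IsOpen (Set.range α) := fun h => by
    obtain ⟨j, hj⟩ := h23 h
    exact isOpen_range_of_induces α hα j hj
  refine ⟨hop, ?_⟩
  tfae_have 1 → 2 := by
    rintro ⟨j, hj, -⟩ g n k hn hg z hz
    apply j.injective
    rw [← hj g z, map_pow]
    exact hg (j z) (by rw [← map_pow, hz, map_one])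
  tfae_have 2 → 3 := fun h => ⟨⊤, isOpen_univ, Set.univ, meetsSplit_univ,
    fun g _ p _ hp _ hc => hback h g p hp hc⟩
  tfae_have 3 → 1 := by
    rintro ⟨U, hU, Q, hQ, h⟩
    exact existsUnique_of_exists' hl hE₁ hE₂ α (acts_A hl hl2 hE₁ hE₂ α hα U hU Q hQ h)
  tfae_have 2 → 4 := fun h => ⟨hop h, ⊤, isOpen_univ, Set.univ, meetsSplit_univ,
    fun g _ p _ hp _ hc => by
      obtain ⟨c, hc⟩ := hc
      exact ⟨c, h g p (c ^ l) hp.pos hc⟩⟩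
  tfae_have 4 → 1 := by
    rintro ⟨hopen, U, hU, Q, hQ, h⟩
    exact existsUnique_of_exists' hl hE₁ hE₂ α (acts_B hl hl2 hE₁ hE₂ α hα hopen U hU Q hQ h)
  tfae_finish

end

end Vale.Agent.P024.H863
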